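import Vale.Agent.P160R.Defs

/-!
# Integrality at a prime and the discriminant pairing
-/

namespace Vale.Agent.P160R

open Matrix Finset

variable {p : ℕ}

theorem pInt_intCast (hp : p.Prime) (a : ℤ) : PInt p (a : ℚ) := by
  simp [PInt, Rat.den_intCast, hp.ne_one]

theorem pInt_zero (hp : p.Prime) : PInt p (0 : ℚ) := by simp [PInt, hp.ne_one]

theorem PInt.add (hp : p.Prime) {q r : ℚ} (hq : PInt p q) (hr : PInt p r) : PInt p (q + r) :=
  fun h => (hp.dvd_mul.1 (h.trans (Rat.add_den_dvd q r))).elim hq hr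

theorem PInt.mul (hp : p.Prime) {q r : ℚ} (hq : PInt p q) (hr : PInt p r) : PInt p (q * r) :=
  fun h => (hp.dvd_mul.1 (h.trans (Rat.mul_den_dvd q r))).elim hq hr

theorem PInt.neg {q : ℚ} (hq : PInt p q) : PInt p (-q) := by simpa [PInt] using hq

theorem PInt.sub (hp : p.Prime) {q r : ℚ} (hq : PInt p q) (hr : PInt p r) : PInt p (q - r) := by
  rw [sub_eq_add_neg]; exact hq.add hp hr.neg

theorem pInt_sum (hp : p.Prime) {β : Type*} (s : Finset β) (g : β → ℚ)
    (h : ∀ b ∈ s, PInt p (g b)) : PInt p (∑ b ∈ s, g b) :=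
  Finset.sum_induction g (PInt p) (fun _ _ ha hb => ha.add hp hb) (pInt_zero hp) h

theorem pInt_iff_exists (hp : p.Prime) {q : ℚ} :
    PInt p q ↔ ∃ t a : ℤ, ¬ (p : ℤ) ∣ t ∧ (t : ℚ) * q = a := by
  constructor
  · intro h
    refine ⟨q.den, q.num, fun hd => h (Int.natCast_dvd_natCast.1 hd), ?_⟩
    rw [mul_comm]
    exact_mod_cast Rat.mul_den_eq_num q
  · rintro ⟨t, a, ht, he⟩ h
    have ht0 : (t : ℚ) ≠ 0 := by exact_mod_cast fun h0 : t = 0 => ht (h0 ▸ dvd_zero _)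
    have hq : q = (a : ℚ) / (t : ℚ) := by rw [eq_div_iff ht0, mul_comm, he]
    have hd : ((q.den : ℕ) : ℤ) ∣ t := by
      rw [hq, ← Rat.divInt_eq_div]
      exact Rat.den_dvd a t
    exact ht ((Int.natCast_dvd_natCast.2 h).trans hd)

theorem pInt_of_mul (hp : p.Prime) {t : ℤ} (ht : ¬ (p : ℤ) ∣ t) {q : ℚ}
    (h : PInt p ((t : ℚ) * q)) : PInt p q := by
  obtain ⟨s, a, hs, he⟩ := (pInt_iff_exists hp).1 h
  refine (pInt_iff_exists hp).2 ⟨s * t, a, ?_, by push_cast; rw [mul_assoc]; exact he⟩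
  exact fun hd => ((Nat.prime_iff_prime_int.1 hp).dvd_mul.1 hd).elim hs ht

theorem pInt_pow_mul_div (hp : p.Prime) {f : ℕ} {a d : ℤ} (hd : ¬ (p : ℤ) ∣ d)
    (ha : (p : ℤ) ^ f ∣ a) : PInt p ((a : ℚ) / ((p : ℚ) ^ f * d)) := by
  obtain ⟨b, rfl⟩ := ha
  refine (pInt_iff_exists hp).2 ⟨d, b, hd, ?_⟩
  have : (d : ℚ) ≠ 0 := by exact_mod_cast fun h0 : d = 0 => hd (h0 ▸ dvd_zero _)
  have : (p : ℚ) ≠ 0 := by exact_mod_cast hp.ne_zero
  push_cast
  field_simp

theorem den_split (hp : p.Prime) (q : ℚ) :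
    ∃ d : ℕ, ¬ p ∣ d ∧ q.den = p ^ pExp p q * d := by
  obtain ⟨d, hd⟩ := pow_padicValNat_dvd (p := p) (n := q.den)
  refine ⟨d, fun hpd => ?_, hd⟩
  haveI : Fact p.Prime := ⟨hp⟩
  refine pow_succ_padicValNat_not_dvd (p := p) q.den_nz ?_
  calc p ^ (padicValNat p q.den + 1) = p ^ padicValNat p q.den * p := pow_succ _ _
    _ ∣ p ^ padicValNat p q.den * d := mul_dvd_mul_left _ hpd
    _ = q.den := hd.symm

theorem pExp_le_iff (hp : p.Prime) (q : ℚ) (f : ℕ) :
    pExp p q ≤ f ↔ PInt p ((p : ℚ) ^ f * q) := by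
  obtain ⟨d, hd, he⟩ := den_split hp q
  have hq : (p : ℚ) ^ pExp p q * d * q = q.num := by
    have := Rat.mul_den_eq_num q
    rw [he] at this
    push_cast at this
    linear_combination this
  constructor
  · intro h
    obtain ⟨k, hk⟩ := Nat.exists_eq_add_of_le h
    refine (pInt_iff_exists hp).2 ⟨d, (p : ℤ) ^ k * q.num,
      fun hh => hd (Int.natCast_dvd_natCast.1 hh), ?_⟩
    rw [hk, pow_add]
    push_cast
    linear_combination (p : ℚ) ^ k * hq
  · intro h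
    by_contra hlt
    obtain ⟨t, a, ht, hta⟩ := (pInt_iff_exists hp).1 h
    obtain ⟨k, hk⟩ := Nat.exists_eq_add_of_lt (not_le.1 hlt)
    have hqa : (t : ℚ) * q.num = (a : ℚ) * ((p : ℚ) ^ (k + 1) * d) := by
      rw [hk, show f + k + 1 = f + (k + 1) by ring, pow_add] at hq
      linear_combination ((p : ℚ) ^ (k + 1) * d) * hta - (t : ℚ) * hq
    have hZ : t * q.num = a * ((p : ℤ) ^ (k + 1) * d) := by exact_mod_cast hqa
    have hdvd : (p : ℤ) ∣ t * q.num :=
      hZ ▸ (dvd_mul_of_dvd_left (dvd_pow_self _ (Nat.succ_ne_zero k)) _).mul_left a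
    rcases (Nat.prime_iff_prime_int.1 hp).dvd_mul.1 hdvd with h1 | h1
    · exact ht h1
    · refine hp.ne_one (Nat.eq_one_of_dvd_coprimes q.reduced (Int.natCast_dvd.1 h1) ?_)
      rw [he, hk]
      exact dvd_mul_of_dvd_left (dvd_pow_self _ (Nat.succ_ne_zero _)) _

theorem pExp_eq_zero_iff (hp : p.Prime) (q : ℚ) : pExp p q = 0 ↔ PInt p q := by
  simpa using pExp_le_iff hp q 0

theorem pExp_add_pInt (hp : p.Prime) (q : ℚ) {r : ℚ} (hr : PInt p r) :
    pExp p (q + r) = pExp p q := by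
  refine eq_of_forall_ge_iff fun f => ?_
  rw [pExp_le_iff hp, pExp_le_iff hp]
  have hpr : PInt p ((p : ℚ) ^ f * r) := by
    have := (pInt_intCast hp ((p : ℤ) ^ f)).mul hp hr
    simpa using this
  constructor
  · intro h
    have := h.sub hp hpr
    rwa [mul_add, add_sub_cancel_right] at this
  · intro h
    rw [mul_add]
    exact h.add hp hpr

theorem pow_dvd_of_pInt (hp : p.Prime) {f : ℕ} {q : ℚ} (hq : pExp p q = f) {k : ℤ}
    (h : PInt p ((k : ℚ) * q)) : (p : ℤ) ^ f ∣ k := by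
  obtain ⟨d, hd, he⟩ := den_split hp q
  rw [hq] at he
  obtain ⟨t, a, ht, hta⟩ := (pInt_iff_exists hp).1 h
  have hqn := Rat.mul_den_eq_num q
  rw [he] at hqn
  push_cast at hqn
  have hqq : ((t * k * q.num : ℤ) : ℚ) = ((a * ((p : ℤ) ^ f * d) : ℤ) : ℚ) := by
    push_cast
    linear_combination (-(t : ℚ) * k) * hqn + ((p : ℚ) ^ f * d) * hta
  have hZ : t * k * q.num = a * ((p : ℤ) ^ f * d) := by exact_mod_cast hqq
  rcases Nat.eq_zero_or_pos f with hf | hf
  · simp [hf]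
  refine (Nat.prime_iff_prime_int.1 hp).pow_dvd_of_dvd_mul_left f ht ?_
  refine (Nat.prime_iff_prime_int.1 hp).pow_dvd_of_dvd_mul_right f
    (fun h1 => hp.ne_one (Nat.eq_one_of_dvd_coprimes q.reduced (Int.natCast_dvd.1 h1) ?_)) ?_
  · rw [he]; exact dvd_mul_of_dvd_left (dvd_pow_self _ hf.ne') _
  · exact hZ ▸ (dvd_mul_right _ _).mul_left a

/-- An integer multiple of a unit of denominator `p ^ f` cancels a fraction of at most that
denominator. -/
theorem exists_int_cancel (hp : p.Prime) {f : ℕ} {y β : ℚ} (hy : pExp p y = f)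
    (hβ : pExp p β ≤ f) : ∃ k : ℤ, PInt p (β - k * y) := by
  obtain ⟨t, a, ht, hta⟩ := (pInt_iff_exists hp).1 ((pExp_le_iff hp β f).1 hβ)
  obtain ⟨s, b, hs, hsb⟩ := (pInt_iff_exists hp).1 ((pExp_le_iff hp y f).1 hy.le)
  rcases Nat.eq_zero_or_pos f with hf | hf
  · exact ⟨0, by simpa using (pExp_eq_zero_iff hp β).1 (by omega)⟩
  have hb : ¬ (p : ℤ) ∣ b := by
    rintro ⟨c, rfl⟩
    have : pExp p y ≤ f - 1 := by
      refine (pExp_le_iff hp y _).2 ((pInt_iff_exists hp).2 ⟨s, c, hs, ?_⟩)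
      have hp0 : (p : ℚ) ≠ 0 := by exact_mod_cast hp.ne_zero
      refine mul_left_cancel₀ hp0 ?_
      have hpf : (p : ℚ) ^ f = p * (p : ℚ) ^ (f - 1) := by rw [← pow_succ']; congr 1; omega
      rw [hpf] at hsb
      push_cast at hsb
      linear_combination hsb
    omega
  have hu : ¬ (p : ℤ) ∣ t * b := fun h =>
    ((Nat.prime_iff_prime_int.1 hp).dvd_mul.1 h).elim ht hb
  have hcop : IsCoprime (t * b) ((p : ℤ) ^ f) :=
    ((Prime.coprime_iff_not_dvd (Nat.prime_iff_prime_int.1 hp)).2 hu).symm.pow_right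
  obtain ⟨u, v, huv⟩ := hcop
  refine ⟨a * s * u, (pInt_of_mul hp ht (pInt_of_mul hp hs ?_))⟩
  refine (pInt_iff_exists hp).2 ⟨1, a * s * v, fun h => hp.ne_one (by
    exact_mod_cast Int.eq_one_of_dvd_one (by positivity) h), ?_⟩
  have huv' : (u : ℚ) * (t * b) + v * (p : ℚ) ^ f = 1 := by exact_mod_cast huv
  have hpf : (p : ℚ) ^ f ≠ 0 := pow_ne_zero _ (by exact_mod_cast hp.ne_zero)
  refine mul_left_cancel₀ hpf ?_
  push_cast
  linear_combination (s : ℚ) * hta - (a * s * u * t : ℚ) * hsb - (a * s : ℚ) * huv'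

variable {ι : Type} [Fintype ι] [DecidableEq ι] {B : Matrix ι ι ℤ}

theorem isUnit_map (hd : B.det ≠ 0) : IsUnit (B.map (Int.cast : ℤ → ℚ)).det := by
  rw [isUnit_iff_ne_zero, show (B.map (Int.cast : ℤ → ℚ)).det = (B.det : ℚ) from
    ((Int.castRingHom ℚ).map_det B).symm]
  exact_mod_cast hd

theorem qVec_mulVec (hd : B.det ≠ 0) (u : ι → ℤ) (i : ι) :
    qVec B (B.mulVec u) i = u i := by
  have : (fun l => ((B.mulVec u l : ℤ) : ℚ)) =
      (B.map (Int.cast : ℤ → ℚ)).mulVec (fun l => (u l : ℚ)) := by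
    funext l
    exact RingHom.map_mulVec (Int.castRingHom ℚ) B u l
  rw [qVec, qInv, this, Matrix.mulVec_mulVec, Matrix.nonsing_inv_mul _ (isUnit_map hd),
    Matrix.one_mulVec]

theorem qVec_add (x y : ι → ℤ) : qVec B (x + y) = qVec B x + qVec B y := by
  rw [qVec, qVec, qVec, ← Matrix.mulVec_add]
  congr 1
  funext i
  simp

theorem qVec_smul (a : ℤ) (x : ι → ℤ) : qVec B (a • x) = (a : ℚ) • qVec B x := by
  rw [qVec, qVec, ← Matrix.mulVec_smul]
  congr 1
  funext i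
  simp

theorem qForm_symm (hB : B.IsSymm) (x y : ι → ℤ) : qForm B x y = qForm B y x := by
  have hs : (qInv B)ᵀ = qInv B := by
    rw [qInv, Matrix.transpose_nonsing_inv, ← Matrix.transpose_map, hB.eq]
  rw [qForm, qForm, qVec, qVec, Matrix.dotProduct_mulVec, ← Matrix.mulVec_transpose, hs,
    dotProduct_comm]

theorem qForm_add_left (x y r : ι → ℤ) : qForm B (x + y) r = qForm B x r + qForm B y r := by
  rw [qForm, qForm, qForm, ← add_dotProduct]
  congr 1
  funext i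
  simp

theorem qForm_smul_left (a : ℤ) (x r : ι → ℤ) : qForm B (a • x) r = a * qForm B x r := by
  rw [qForm, qForm, ← smul_eq_mul, ← smul_dotProduct]
  congr 1
  funext i
  simp

theorem qForm_add_right (x y r : ι → ℤ) : qForm B x (y + r) = qForm B x y + qForm B x r := by
  rw [qForm, qForm, qForm, qVec_add, dotProduct_add]

theorem qForm_smul_right (a : ℤ) (x r : ι → ℤ) : qForm B x (a • r) = a * qForm B x r := by
  rw [qForm, qForm, qVec_smul, dotProduct_smul, smul_eq_mul]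

theorem qForm_mulVec_right (hd : B.det ≠ 0) (x u : ι → ℤ) :
    qForm B x (B.mulVec u) = ((x ⬝ᵥ u : ℤ) : ℚ) := by
  rw [qForm]
  simp [dotProduct, qVec_mulVec hd]

theorem qForm_single_left (i : ι) (r : ι → ℤ) :
    qForm B (Pi.single i 1) r = qVec B r i := by
  rw [qForm, dotProduct, Finset.sum_eq_single i] <;> simp +contextual

theorem pExp_qForm_le (hp : p.Prime) {x : ι → ℤ} {f : ℕ} (h : ∀ i, pExp p (qVec B x i) ≤ f)
    (r : ι → ℤ) : pExp p (qForm B r x) ≤ f := by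
  rw [pExp_le_iff hp, qForm, dotProduct, Finset.mul_sum]
  refine pInt_sum hp _ _ fun i _ => ?_
  rw [mul_left_comm]
  exact (pInt_intCast hp _).mul hp ((pExp_le_iff hp _ f).1 (h i))

end Vale.Agent.P160R

namespace Vale.Agent.P160R

open Matrix Finset

variable {ι : Type} [Fintype ι] [DecidableEq ι] {B : Matrix ι ι ℤ} {p : ℕ}

omit [DecidableEq ι] in
/-- Integral vectors at a prime have an integer multiple prime to it. -/
theorem exists_int_multiple (hp : p.Prime) (v : ι → ℚ) (h : ∀ i, PInt p (v i)) :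
    ∃ (D : ℤ) (w : ι → ℤ), ¬ (p : ℤ) ∣ D ∧ ∀ i, (D : ℚ) * v i = w i := by
  classical
  refine ⟨∏ i, ((v i).den : ℤ), fun i => (v i).num * ∏ j ∈ univ.erase i, ((v j).den : ℤ),
    fun hd => ?_, fun i => ?_⟩
  · obtain ⟨i, -, hi⟩ := ((Nat.prime_iff_prime_int.1 hp).dvd_finsetProd_iff _).1 hd
    exact h i (Int.natCast_dvd_natCast.1 hi)
  · rw [← mul_prod_erase univ (fun j => ((v j).den : ℤ)) (mem_univ i)]
    have := Rat.mul_den_eq_num (v i)
    push_cast
    linear_combination (∏ j ∈ univ.erase i, ((v j).den : ℚ)) * this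

theorem corankMod_eq (hp : p.Prime) :
    haveI : Fact p.Prime := ⟨hp⟩
    corankMod p B =
      Module.finrank (ZMod p) (LinearMap.ker (B.map (Int.cast : ℤ → ZMod p)).mulVecLin) := by
  haveI : Fact p.Prime := ⟨hp⟩
  rw [corankMod, dif_pos hp]
  have := LinearMap.finrank_range_add_finrank_ker (B.map (Int.cast : ℤ → ZMod p)).mulVecLin
  rw [Module.finrank_fintype_fun_eq_card] at this
  rw [Matrix.rank]
  omega

theorem mem_ker_mod (v : ι → ℤ) (h : ∀ i, (p : ℤ) ∣ B.mulVec v i) :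
    (fun i => (v i : ZMod p)) ∈ LinearMap.ker (B.map (Int.cast : ℤ → ZMod p)).mulVecLin := by
  rw [LinearMap.mem_ker, Matrix.mulVecLin_apply]
  funext i
  have := RingHom.map_mulVec (Int.castRingHom (ZMod p)) B v i
  exact this.symm.trans ((ZMod.intCast_zmod_eq_zero_iff_dvd _ _).2 (h i))

theorem dvd_of_mem_ker (v : ι → ℤ)
    (h : (fun i => (v i : ZMod p)) ∈ LinearMap.ker (B.map (Int.cast : ℤ → ZMod p)).mulVecLin)
    (i : ι) : (p : ℤ) ∣ B.mulVec v i := by
  rw [LinearMap.mem_ker, Matrix.mulVecLin_apply] at h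
  refine (ZMod.intCast_zmod_eq_zero_iff_dvd _ _).1 ?_
  exact (RingHom.map_mulVec (Int.castRingHom (ZMod p)) B v i).trans (congrFun h i)

end Vale.Agent.P160R
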