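import Vale.Agent.P160R.Local.Arith

/-!
# The two extreme coranks at a candidate with trivial cofactor
-/

namespace Vale.Agent.P160R

open Matrix Finset

variable {ι : Type} [Fintype ι] [DecidableEq ι] {B : Matrix ι ι ℤ} {p : ℕ}

/-- A scaled candidate gives a nonzero kernel vector. -/
theorem cand_kernel_vector (hd : B.det ≠ 0) (hp : p.Prime) {f : ℕ} (hf : 0 < f) {x : ι → ℤ}
    (hle : ∀ i, pExp p (qVec B x i) ≤ f) (hex : ∃ i, pExp p (qVec B x i) = f) :
    ∃ (D : ℤ) (w : ι → ℤ), ¬ (p : ℤ) ∣ D ∧ (∀ i, (D : ℚ) * ((p : ℚ) ^ f * qVec B x i) = w i) ∧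
      (∀ i, (p : ℤ) ∣ B.mulVec w i) ∧ (fun i => (w i : ZMod p)) ≠ 0 := by
  obtain ⟨D, w, hD, hw⟩ :=
    exists_int_multiple hp (fun i => (p : ℚ) ^ f * qVec B x i) fun i => (pExp_le_iff hp _ f).1 (hle i)
  refine ⟨D, w, hD, hw, fun i => ?_, ?_⟩
  · have hv : (fun l => (w l : ℚ)) = (((D * (p : ℤ) ^ f : ℤ) : ℚ)) • qVec B x := by
      funext l
      rw [← hw l]
      simp [mul_assoc]
    have h1 : ((B.mulVec w i : ℤ) : ℚ) = ((D * (p : ℤ) ^ f * x i : ℤ) : ℚ) := by
      have := RingHom.map_mulVec (Int.castRingHom ℚ) B w i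
      refine this.trans ?_
      show ((B.map (Int.cast : ℤ → ℚ)).mulVec fun l => (w l : ℚ)) i = _
      rw [hv, Matrix.mulVec_smul, qVec, qInv, Matrix.mulVec_mulVec,
        Matrix.mul_nonsing_inv _ (isUnit_map hd), Matrix.one_mulVec]
      simp
    rw [Int.cast_inj.1 h1]
    exact ((dvd_pow_self _ hf.ne').mul_left D).mul_right _
  · intro h0
    obtain ⟨i, hi⟩ := hex
    obtain ⟨c, hc⟩ := (ZMod.intCast_zmod_eq_zero_iff_dvd _ _).1 (congrFun h0 i)
    have : pExp p (qVec B x i) ≤ f - 1 := by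
      refine (pExp_le_iff hp _ _).2 ((pInt_iff_exists hp).2 ⟨D, c, hD, ?_⟩)
      have hp0 : (p : ℚ) ≠ 0 := by exact_mod_cast hp.ne_zero
      refine mul_left_cancel₀ hp0 ?_
      have := hw i
      rw [hc, show (p : ℚ) ^ f = p * (p : ℚ) ^ (f - 1) by
        rw [← pow_succ']; congr 1; omega] at this
      push_cast at this
      linear_combination this
    omega

/-- With corank at most one every class killed by `p ^ f` is a multiple of a candidate. -/
theorem mem_cyclic (hd : B.det ≠ 0) (hp : p.Prime) (hc : corankMod p B ≤ 1) {f : ℕ} (hf : 0 < f)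
    {x : ι → ℤ} (hle : ∀ i, pExp p (qVec B x i) ≤ f) (hex : ∃ i, pExp p (qVec B x i) = f) :
    ∀ j ≤ f, ∀ r : ι → ℤ, (∀ i, pExp p (qVec B r i) ≤ j) →
      ∃ a : ℤ, ∀ i, PInt p (qVec B r i - a * qVec B x i) := by
  haveI : Fact p.Prime := ⟨hp⟩
  obtain ⟨D, w, hD, hw, hwB, hw0⟩ := cand_kernel_vector hd hp hf hle hex
  intro j
  induction j with
  | zero =>
    intro _ r hr
    exact ⟨0, fun i => by simpa using (pExp_eq_zero_iff hp _).1 (Nat.le_zero.1 (hr i))⟩
  | succ j ih =>
    intro hj r hr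
    obtain ⟨E, v, hE, hv⟩ := exists_int_multiple hp (fun i => (p : ℚ) ^ (j + 1) * qVec B r i)
      fun i => (pExp_le_iff hp _ (j + 1)).1 (hr i)
    have hvB : ∀ i, (p : ℤ) ∣ B.mulVec v i := by
      intro i
      have hv' : (fun l => (v l : ℚ)) = (((E * (p : ℤ) ^ (j + 1) : ℤ) : ℚ)) • qVec B r := by
        funext l
        rw [← hv l]
        simp [mul_assoc]
      have h1 : ((B.mulVec v i : ℤ) : ℚ) = ((E * (p : ℤ) ^ (j + 1) * r i : ℤ) : ℚ) := by
        refine (RingHom.map_mulVec (Int.castRingHom ℚ) B v i).trans ?_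
        show ((B.map (Int.cast : ℤ → ℚ)).mulVec fun l => (v l : ℚ)) i = _
        rw [hv', Matrix.mulVec_smul, qVec, qInv, Matrix.mulVec_mulVec,
          Matrix.mul_nonsing_inv _ (isUnit_map hd), Matrix.one_mulVec]
        simp
      rw [Int.cast_inj.1 h1]
      exact ((dvd_pow_self _ (Nat.succ_ne_zero j)).mul_left E).mul_right _
    -- the kernel is the line of `w`
    obtain ⟨c, hcv⟩ : ∃ c : ZMod p, c • (fun i => (w i : ZMod p)) = fun i => (v i : ZMod p) := by
      rw [corankMod_eq hp] at hc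
      obtain ⟨u, hu⟩ := finrank_le_one_iff.1 hc
      obtain ⟨a, ha⟩ := hu ⟨_, mem_ker_mod w hwB⟩
      obtain ⟨b, hb⟩ := hu ⟨_, mem_ker_mod v hvB⟩
      have ha' := congrArg Subtype.val ha
      have hb' := congrArg Subtype.val hb
      simp only [SetLike.val_smul] at ha' hb'
      have ha0 : a ≠ 0 := by
        rintro rfl
        exact hw0 (by rw [← ha', zero_smul])
      refine ⟨b * a⁻¹, ?_⟩
      rw [← ha', ← hb', smul_smul, mul_assoc, inv_mul_cancel₀ ha0, mul_one]
    obtain ⟨cz, rfl⟩ := ZMod.intCast_surjective c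
    -- subtract the multiple, lowering the exponent
    set r' : ι → ℤ := E • r - (cz * D * (p : ℤ) ^ (f - (j + 1))) • x with hr'def
    have hr' : ∀ i, pExp p (qVec B r' i) ≤ j := by
      intro i
      obtain ⟨m, hm⟩ : (p : ℤ) ∣ v i - cz * w i := by
        rw [← ZMod.intCast_zmod_eq_zero_iff_dvd]
        push_cast
        have := congrFun hcv i
        simp only [Pi.smul_apply, smul_eq_mul] at this
        rw [← this, sub_self]
      refine (pExp_le_iff hp _ _).2 ((pInt_iff_exists hp).2 ⟨1, m, ?_, ?_⟩)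
      · exact fun h => hp.ne_one (by exact_mod_cast Int.eq_one_of_dvd_one (by positivity) h)
      · have hp0 : (p : ℚ) ≠ 0 := by exact_mod_cast hp.ne_zero
        refine mul_left_cancel₀ hp0 ?_
        have hmq : (v i : ℚ) - cz * w i = p * m := by exact_mod_cast hm
        have hpow : (p : ℚ) ^ f = (p : ℚ) ^ (j + 1) * (p : ℚ) ^ (f - (j + 1)) := by
          rw [← pow_add]; congr 1; omega
        have hwi := hw i
        rw [hpow] at hwi
        rw [hr'def, sub_eq_add_neg (E • r), qVec_add, ← neg_smul, qVec_smul, qVec_smul]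
        simp only [Pi.add_apply, Pi.smul_apply, smul_eq_mul]
        push_cast
        linear_combination hv i - (cz : ℚ) * hwi + hmq
    obtain ⟨a, ha⟩ := ih (by omega) r' hr'
    set b : ℤ := a + cz * D * (p : ℤ) ^ (f - (j + 1))
    obtain ⟨s, t, hst⟩ : IsCoprime E ((p : ℤ) ^ f) :=
      ((Prime.coprime_iff_not_dvd (Nat.prime_iff_prime_int.1 hp)).2 hE).symm.pow_right
    refine ⟨s * b, fun i => ?_⟩
    have h1 : PInt p ((E : ℚ) * qVec B r i - b * qVec B x i) := by
      have := ha i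
      rw [hr'def, sub_eq_add_neg (E • r), qVec_add, ← neg_smul, qVec_smul, qVec_smul] at this
      convert this using 1
      simp only [Pi.add_apply, Pi.smul_apply, smul_eq_mul, b]
      push_cast
      ring
    refine pInt_of_mul hp hE ?_
    have h2 := h1.add hp ((pInt_intCast hp (t * b)).mul hp ((pExp_le_iff hp _ f).1 (hle i)))
    convert h2 using 1
    have hst' : (s : ℚ) * E + t * (p : ℚ) ^ f = 1 := by exact_mod_cast hst
    push_cast
    linear_combination (-(b : ℚ) * qVec B x i) * hst'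

end Vale.Agent.P160R
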